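import Vale.Agent.P101.SMain

namespace Vale.Agent.Results.P101.Full

open Vale.Agent.P101 Vale.Agent.P101.S
open scoped TensorProduct

theorem result {A Z H K : Type*} [CStarAlgebra A] [CStarAlgebra Z]
    [NormedAddCommGroup H] [InnerProductSpace ℂ H] [CompleteSpace H]
    [NormedAddCommGroup K] [InnerProductSpace ℂ K] [CompleteSpace K] :
    (∃ (Z₀ : Type) (_ : CStarAlgebra Z₀), S.IsJiangSu Z₀) ∧
    ∀ [Nontrivial A] [TopologicalSpace.SeparableSpace A] (ω : Ultrafilter ℕ),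
      (ω : Filter ℕ) ≤ Filter.cofinite → S.NoCharacter A ω → S.IsJiangSu Z →
      ∀ (π : A →⋆ₐ[ℂ] (H →L[ℂ] H)) (σ : Z →⋆ₐ[ℂ] (K →L[ℂ] K)),
        Function.Injective π → Function.Injective σ →
        IsoToGenerated A
          {T : UniformSpace.Completion (H ⊗[ℂ] K) →L[ℂ] UniformSpace.Completion (H ⊗[ℂ] K) |
            ∃ a z, T = (TensorProduct.mapL (π a) (σ z)).completion} :=
  ⟨S_exists, fun ω hω h hZ π σ hπ hσ => S_main ω hω h hZ π σ hπ hσ⟩

end Vale.Agent.Results.P101.Full
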