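import Vale.Agent.P101.SMain

namespace Vale.Agent.Results.P101.Stable

open Vale.Agent.P101 Vale.Agent.P101.S
open scoped TensorProduct

theorem result {A Z H K : Type*} [CStarAlgebra A] [Nontrivial A]
    [TopologicalSpace.SeparableSpace A]
    (ω : Ultrafilter ℕ) (hω : (ω : Filter ℕ) ≤ Filter.cofinite) (h : S.NoCharacter A ω)
    [CStarAlgebra Z] (hZ : S.IsJiangSu Z)
    [NormedAddCommGroup H] [InnerProductSpace ℂ H] [CompleteSpace H]
    [NormedAddCommGroup K] [InnerProductSpace ℂ K] [CompleteSpace K]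
    (π : A →⋆ₐ[ℂ] (H →L[ℂ] H)) (σ : Z →⋆ₐ[ℂ] (K →L[ℂ] K))
    (hπ : Function.Injective π) (hσ : Function.Injective σ) :
    IsoToGenerated A
      {T : UniformSpace.Completion (H ⊗[ℂ] K) →L[ℂ] UniformSpace.Completion (H ⊗[ℂ] K) |
        ∃ a z, T = (TensorProduct.mapL (π a) (σ z)).completion} :=
  S_main ω hω h hZ π σ hπ hσ

end Vale.Agent.Results.P101.Stable
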